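import Vale.Agent.P251.X.OrMU
import Vale.Agent.P241.H795.Height

/-!
# P241, EX: the height condition in an associative monoid under `MU`

`R` a commutative oriented monoid, `u : R ⟶ K` a map of monoids (`K` not necessarily commutative).
If the coefficients of index `≤ N` of the `p`-series of `R` die in `K` and the one of index `N + 1`
goes to `b`, with `a b = 1`, then `x ^ (N + 1) = a [p](x)` on `ℂP^(N+1)` in the cohomology of `K`.
-/

set_option linter.unusedSectionVars false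
set_option linter.style.haveILetI false

open CategoryTheory MonoidalCategory Limits Pretriangulated MonObj
open Vale.Agent.P251 Vale.Agent.P251.G Vale.Agent.P251.G.LC Vale.Agent.P251.I
open Vale.Agent.P251.T Vale.Agent.P251.F Vale.Agent.P217
open Vale.Agent.P251.S (ModStr Sc scMul)
open Functor.OplaxMonoidal Functor.LaxMonoidal
open Vale.Agent.P251.M Vale.Agent.P251.M.EvenSpheres

universe v u

noncomputable section

namespace Vale.Agent.P241.EX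

open Vale.Agent.P241.H795

variable {T : Type u} [Category.{v} T] [Preadditive T] [HasZeroObject T]
    [HasShift T ℤ] [∀ n : ℤ, (shiftFunctor T n).Additive] [Pretriangulated T] [IsTriangulated T]
    [MonoidalCategory T] [SymmetricCategory T] [TensorTriangulated T] [MonoidalClosed T]
    [HasCoproducts.{0} T] [HasProducts.{0} T] [StableCat T]
  {E : EvenSpheres T} {F : SpaceFunctor T} {e : F.S.obj CCF ≅ E.L}
  {R : T} [MonObj R] [IsCommMonObj R] {K : T} [MonObj K]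

/-- push-forward of scalar multiples -/
theorem smul_push {R K P W : T} [MonObj R] [MonObj K] [MonObj P] (u : R ⟶ K) [IsMonHom u]
    (y : W ⟶ R ⊗ P) (x : 𝟙_ T ⟶ R ⊗ P) :
    (y ≫ (ModStr.self (R ⊗ P)).smul x) ≫ u ▷ P =
      (y ≫ u ▷ P) ≫ (ModStr.self (K ⊗ P)).smul (x ≫ u ▷ P) := by
  have h1 : μ[R ⊗ P] ≫ u ▷ P = ((u ▷ P) ⊗ₘ (u ▷ P)) ≫ μ[K ⊗ P] := IsMonHom.mul_hom (u ▷ P)
  rw [smul_self_eq, smul_self_eq, Category.assoc, Category.assoc, h1,
    tensorHom_comp_tensorHom_assoc]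

theorem tU_smul_push (X : FCat) (a : (thK e R).A) (x : (thK e R).U X.obj) (u : R ⟶ K)
    [IsMonHom u] : tU e R X (a • x) ≫ u ▷ E.PS = (tU e R X x ≫ u ▷ E.PS) ≫
      (ModStr.self (K ⊗ E.PS)).smul (sharpTot E K (HRing.map u (coefK e R a))) := by
  rw [tU_smul e X a x, smul_push, sharpTot_push]

/-- If the images in `K` of the coefficients of `f` of index `≤ N` vanish, then the push-forward
of `f(z)` on `ℂP^(N+1)` is the one of `f_(N+1) z ^ (N+1)`. -/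
theorem tU_nev1_push (o : Q.Orientation (thK e R)) (u : R ⟶ K) [IsMonHom u]
    (f : PowerSeries (thK e R).A) (N : ℕ)
    (hf : ∀ l ≤ N, HRing.map u (coefK e R (PowerSeries.coeff l f)) = 0) :
    tU e R (grX (N + 2)) (Q.nev1 (o.z (Fin (N + 2))) f) ≫ u ▷ E.PS =
      (tU e R (grX (N + 2)) (o.z (Fin (N + 2)) ^ (N + 1)) ≫ u ▷ E.PS) ≫
        (ModStr.self (K ⊗ E.PS)).smul
          (sharpTot E K (HRing.map u (coefK e R (PowerSeries.coeff (N + 1) f)))) := by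
  have h0 : (o.z (Fin (N + 2))) ^ (N + 2) = 0 := Q.z_pow_eq_zero o (N + 2) (Fin (N + 2)) (by simp)
  rw [Q.nev1_eq_sum h0]
  refine (congrArg (· ≫ u ▷ E.PS) (map_sum (tU e R (grX (N + 2))) _ _)).trans ?_
  refine (Preadditive.sum_comp _ _ _).trans ?_
  rw [Finset.sum_range_succ, Finset.sum_eq_zero, zero_add]
  · exact tU_smul_push (grX (N + 2)) _ _ u
  · intro l hl
    exact tU_smul_push_eq_zero (grX (N + 2)) _ _ u (hf l (by have := Finset.mem_range.mp hl; omega))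

/-- The product of the pushed classes, in terms of `PS`. -/
theorem cross_inPS {A B : T} {N : ℕ} (w : A ⟶ K ⊗ Z.SC F N) (y : B ⟶ K ⊗ Z.SC F 1)
    (i : Z.Cn N ⊗ Z.Cn 1 ≅ Z.Cn (N + 1)) (hi : Z.IsAppend i) :
    ((w ⊗ₘ y) ≫ tensorμ K (Z.SC F N) K (Z.SC F 1) ≫ (μ[K] ⊗ₘ (Z.SCadd F i).hom)) ≫
        K ◁ ((Z.sphId e).iso (N + 1)).hom ≫ K ◁ E.inPS ((N + 1 : ℕ) : ℤ) =
      ((w ≫ K ◁ ((Z.sphId e).iso N).hom ≫ K ◁ E.inPS (N : ℤ)) ⊗ₘ
        (y ≫ K ◁ ((Z.sphId e).iso 1).hom ≫ K ◁ E.inPS ((1 : ℕ) : ℤ))) ≫ μ[K ⊗ E.PS] := by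
  have hc : (N : ℤ) + (1 : ℕ) = (N + 1 : ℕ) := by push_cast; rfl
  have h1 := (Z.sphId e).add N 1 i hi hc
  have h2 := in_tensor_mul (S := E) hc (w ≫ K ◁ ((Z.sphId e).iso N).hom)
    (y ≫ K ◁ ((Z.sphId e).iso 1).hom)
  simp only [Category.assoc] at h2
  rw [h2]
  have h3 : (w ≫ K ◁ ((Z.sphId e).iso N).hom ⊗ₘ y ≫ K ◁ ((Z.sphId e).iso 1).hom) ≫
      tensorμ K (E.S N) K (E.S (1 : ℕ)) ≫ (μ[K] ⊗ₘ (E.mu N (1 : ℕ) (N + 1 : ℕ) hc).hom) =
      ((w ⊗ₘ y) ≫ tensorμ K (Z.SC F N) K (Z.SC F 1) ≫ (μ[K] ⊗ₘ (Z.SCadd F i).hom)) ≫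
        K ◁ ((Z.sphId e).iso (N + 1)).hom := by
    rw [← tensorHom_comp_tensorHom, ← id_tensorHom, ← id_tensorHom, Category.assoc,
      tensorμ_natural_assoc, tensorHom_comp_tensorHom, ← h1, id_tensorHom_id, Category.id_comp,
      Category.assoc, Category.assoc, ← id_tensorHom, tensorHom_comp_tensorHom, Category.comp_id]
  have h4 := congrArg (fun f => f ≫ K ◁ E.inPS ((N + 1 : ℕ) : ℤ)) h3
  simp only [Category.assoc] at h4
  rw [h4]
  simp only [Category.assoc]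

/-- `a b = 1` as scalars. -/
theorem smul_sharp_comp {W : T} {N : ℤ} (b : E.S N ⟶ K) (a : E.S (-N) ⟶ K)
    (hab : gmul (neg_add_cancel N) a b = E.zero.inv ≫ η[K]) (z : W ⟶ K ⊗ E.PS) :
    (sharp a ⊗ₘ (z ≫ (ModStr.self (K ⊗ E.PS)).smul (sharp b))) ≫ μ[K ⊗ E.PS] =
      (λ_ W).hom ≫ z := by
  have h1 := smul_self_eq (z ≫ (ModStr.self (K ⊗ E.PS)).smul (sharp b)) (sharp a)
  rw [Category.assoc, ← ModStr.smul_mul, sharp_mul (neg_add_cancel N), hab, sharp_one,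
    ModStr.smul_one, Category.comp_id] at h1
  rw [Iso.eq_inv_comp] at h1
  exact h1.symm

/-- **The height condition.** -/
theorem push_height (o : Z.Oriented F R)
    (W : ThomFam (RSys R E) F (lineCls e (SeqMonoid.const R))) (hW : Z.IsFam (Z.sphId e) o W)
    (u : R ⟶ K) [IsMonHom u] (p N : ℕ)
    (h0 : ∀ l ≤ N, HRing.map u (coefK e R (PowerSeries.coeff l (multSeries
      (W.orientation (cofTriangles F)
        (isSusp_lineCls e (SeqMonoid.const R))).law.toFG p))) = 0)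
    (b : E.S N ⟶ K) (h1 : HRing.map u (coefK e R (PowerSeries.coeff (N + 1) (multSeries
      (W.orientation (cofTriangles F)
        (isSusp_lineCls e (SeqMonoid.const R))).law.toFG p))) = HRing.of E K N b)
    (a : E.S (-N) ⟶ K) (hab : gmul (neg_add_cancel (N : ℤ)) a b = E.zero.inv ≫ η[K])
    (w : 𝟙_ T ⟶ K ⊗ Z.SC F N)
    (hw : w ≫ K ◁ ((Z.sphId e).iso N).hom ≫ K ◁ E.inPS (N : ℤ) = sharp a)
    (t : LC.of (Gr 1 (Fin (N + 2))) ⟶ LC.of (Th 1 (Fin p → Fin (N + 2))))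
    (ht : Z.IsTensorPower p t)
    (g : LC.of (Gr 1 (Fin (N + 2))) ⟶ LC.of (Th (N + 1) (Fin (N + 1) × Fin (N + 2))))
    (hg : Z.IsMultiple (N + 1) g) (i : Z.Cn N ⊗ Z.Cn 1 ≅ Z.Cn (N + 1)) (hi : Z.IsAppend i) :
    (λ_ _).hom ≫ Z.sus F (X := Z.grF 1 (Fin (N + 2)))
        (Y := Z.thF (N + 1) (Fin (N + 1) × Fin (N + 2))) g ≫ o.θ (N + 1) _ ≫
          u ▷ Z.SC F (N + 1) =
      (w ⊗ₘ (Z.sus F (X := Z.grF 1 (Fin (N + 2))) (Y := Z.thF 1 (Fin p → Fin (N + 2))) t ≫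
        o.θ 1 _ ≫ u ▷ Z.SC F 1)) ≫
          tensorμ K (Z.SC F N) K (Z.SC F 1) ≫ (μ[K] ⊗ₘ (Z.SCadd F i).hom) := by
  set O := W.orientation (cofTriangles F) (isSusp_lineCls e (SeqMonoid.const R)) with hO
  haveI := O.goodGr
  haveI : (thK e R).Good (Q.CP (Fin (N + 2))) := ⟨Q.MultTheory.GoodGr.gr 1 _⟩
  have e1 : (thK e R).map t (O.tau 1 (Fin p → Fin (N + 2))) =
      Q.nev1 (O.z (Fin (N + 2))) (multSeries O.law.toFG p) := by
    rw [Q.map_tensorPower O p _ ht, Q.lc_tpow, Q.lc_id]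
  have e2 : (thK e R).map g (O.tau (N + 1) (Fin (N + 1) × Fin (N + 2))) =
      O.z (Fin (N + 2)) ^ (N + 1) := Q.map_multiple O N _ hg
  have hT := Z.Cells.gr 1 (Fin (N + 2))
  have e3 : tU e R (grX (N + 2)) (Q.nev1 (O.z (Fin (N + 2))) (multSeries O.law.toFG p)) =
      (Z.sus F (X := Z.grF 1 (Fin (N + 2))) (Y := Z.thF 1 (Fin p → Fin (N + 2)))
        t ≫ o.θ 1 _ ≫ R ◁ ((Z.sphId e).iso 1).hom) ≫ R ◁ E.inPS ((1 : ℕ) : ℤ) := by
    rw [← e1, hW.map_tau hT]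
    exact tU_tuel hT _ _
  have e4 : tU e R (grX (N + 2)) (O.z (Fin (N + 2)) ^ (N + 1)) =
      (Z.sus F (X := Z.grF 1 (Fin (N + 2))) (Y := Z.thF (N + 1) (Fin (N + 1) × Fin (N + 2)))
        g ≫ o.θ (N + 1) _ ≫ R ◁ ((Z.sphId e).iso (N + 1)).hom) ≫
          R ◁ E.inPS ((N + 1 : ℕ) : ℤ) := by
    rw [← e2, hW.map_tau hT]
    exact tU_tuel hT _ _
  have e5 := tU_nev1_push O u (multSeries O.law.toFG p) N h0
  rw [h1, e3, e4] at e5
  have e6 : sharpTot E K (HRing.of E K N b) = sharp b := sharpTot_of _ b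
  rw [e6] at e5
  set y := Z.sus F (X := Z.grF 1 (Fin (N + 2))) (Y := Z.thF 1 (Fin p → Fin (N + 2))) t ≫
        o.θ 1 _ ≫ u ▷ Z.SC F 1 with hy
  set z := Z.sus F (X := Z.grF 1 (Fin (N + 2)))
        (Y := Z.thF (N + 1) (Fin (N + 1) × Fin (N + 2))) g ≫ o.θ (N + 1) _ ≫
          u ▷ Z.SC F (N + 1) with hz
  have e7 : y ≫ K ◁ ((Z.sphId e).iso 1).hom ≫ K ◁ E.inPS ((1 : ℕ) : ℤ) =
      (z ≫ K ◁ ((Z.sphId e).iso (N + 1)).hom ≫ K ◁ E.inPS ((N + 1 : ℕ) : ℤ)) ≫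
        (ModStr.self (K ⊗ E.PS)).smul (sharp b) := by
    rw [hy, hz]
    simp only [Category.assoc]
    simp only [Category.assoc] at e5
    rw [← whisker_exchange_assoc, ← whisker_exchange, ← whisker_exchange_assoc,
      ← whisker_exchange_assoc, e5]
  have e8 := cross_inPS (e := e) w y i hi
  rw [hw, e7, smul_sharp_comp b a hab] at e8
  have e9 : IsIso ((Z.sphId e).iso (N + 1)).hom := inferInstance
  rw [← cancel_mono (K ◁ ((Z.sphId e).iso (N + 1)).hom)]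
  apply cancel_inPS
  simp only [Category.assoc] at e8 ⊢
  exact e8.symm

end Vale.Agent.P241.EX
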