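import Vale.Agent.P251.St.OfChrom
import Vale.Agent.P251.M.MUFinal
import Vale.Agent.P241.St.Defs
import Vale.Agent.P241.H618.PushHeight
import Vale.Agent.P241.H795.KRing
import Vale.Agent.P241.H882.HComm

/-!
# P241, EX: from `KA` to `IsMoravaK`

`isMoravaK_of_KA` : an associative Morava `K`-theory under `MU` (`KA D p n K`, `D = M.data c`) is a
Morava `K`-theory in the sense of the statement.
-/

set_option linter.unusedSectionVars false
set_option linter.style.haveILetI false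

open CategoryTheory MonoidalCategory Limits Pretriangulated MonObj

noncomputable section

namespace Vale.Agent.P241.EX

open Vale.Agent.P241.H795
open Vale.Agent.P251 Vale.Agent.P251.G Vale.Agent.P251.G.LC Vale.Agent.P251.I
open Vale.Agent.P251.T Vale.Agent.P251.F Vale.Agent.P251.M Vale.Agent.P217
open Vale.Agent.P251.M.EvenSpheres

section T

universe v u

variable {T : Type u} [Category.{v} T] [Preadditive T] [HasZeroObject T]
    [HasShift T ℤ] [∀ n : ℤ, (shiftFunctor T n).Additive] [Pretriangulated T] [IsTriangulated T]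
    [MonoidalCategory T] [SymmetricCategory T] [TensorTriangulated T] [MonoidalClosed T]
    [HasCoproducts.{0} T] [HasProducts.{0} T] [StableCat T]
  {F : SpaceFunctor T} {e : F.S.obj CCF ≅ (stdEven T).L} {K : T} [MonObj K]

theorem coefK_coeff {R : T} [MonObj R] [IsCommMonObj R] (L : Law (thK e R).A) (p l : ℕ) :
    coefK e R (PowerSeries.coeff l (multSeries L.toFG p)) =
      PowerSeries.coeff l (multSeries (L.map (coefK e R)).toFG p) := by
  rw [Vale.Agent.P251.F.Law.map_toFG, ← Vale.Agent.P251.F.map_multSeries, PowerSeries.coeff_map]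

theorem map_coeff_congr {R : T} [MonObj R] [IsCommMonObj R] (φ : R ⟶ K) [IsMonHom φ]
    {L L' : Law (HRing (stdEven T) R)} (h : L = L') (p l : ℕ) :
    HRing.map φ (PowerSeries.coeff l (multSeries L.toFG p)) =
      HRing.map φ (PowerSeries.coeff l (multSeries L'.toFG p)) := by
  rw [h]

theorem KA.exists_inv {D : MUData T} {p n : ℕ} [Fact p.Prime] (A : KA D p n K) {N : ℕ}
    (hN : N + 1 = p ^ n) :
    ∃ (b : (stdEven T).S N ⟶ K) (a : (stdEven T).S (-N) ⟶ K),
      gmul (neg_add_cancel (N : ℤ)) a b = (stdEven T).zero.inv ≫ η[K] ∧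
      HRing.map A.u (vv p n D.law) = HRing.of (stdEven T) K N b := by
  have hN' : ((p : ℤ) ^ n - 1) = N := by
    have : (N : ℤ) + 1 = (p : ℤ) ^ n := by exact_mod_cast hN
    linarith
  have h1 : HRing.map A.u (vv p n D.law) = HRing.of (stdEven T) K N
      (((stdEven T).castIso N ((p : ℤ) ^ n - 1) hN'.symm).hom ≫ D.vel p n ≫ A.u) := by
    rw [H795.map_vv, of_cast]
  have hu := A.vv_unit
  rw [h1] at hu
  obtain ⟨a, ha, -⟩ := KP.exists_hinv _ hu
  refine ⟨_, a, ?_, h1⟩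
  rw [of_mul_of (neg_add_cancel (N : ℤ))] at ha
  exact DirectSum.of_injective (β := (stdEven T).Gr K) 0 ha

/-- The coefficients of the `p`-series in `K`. -/
theorem KA.exists_height (M : MUMon F (stdEven T) e) (c : MUBasis M.V) {p n : ℕ} [Fact p.Prime]
    (A : KA (M.data c) p n K) {N : ℕ} (hN : N + 1 = p ^ n) (φ : M.R ⟶ K) [IsMonHom φ]
    (hφ : φ = A.u) :
    ∃ (b : (stdEven T).S N ⟶ K) (a : (stdEven T).S (-N) ⟶ K),
      gmul (neg_add_cancel (N : ℤ)) a b = (stdEven T).zero.inv ≫ η[K] ∧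
      (∀ l ≤ N, HRing.map φ (coefK e M.R (PowerSeries.coeff l (multSeries
        (M.fam.orientation (cofTriangles F)
          (isSusp_lineCls e (SeqMonoid.const M.R))).law.toFG p))) = 0) ∧
      HRing.map φ (coefK e M.R (PowerSeries.coeff (N + 1) (multSeries
        (M.fam.orientation (cofTriangles F)
          (isSusp_lineCls e (SeqMonoid.const M.R))).law.toFG p))) =
        HRing.of (stdEven T) K N b := by
  rw [← M.orient_eq]
  obtain ⟨b, a, hab, hv⟩ := KA.exists_inv A hN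
  refine ⟨b, a, hab, fun l hl => ?_, ?_⟩
  · rw [coefK_coeff]
    subst hφ
    exact (map_coeff_congr (R := M.R) A.u (M.data_law c).symm p l).trans
      (map_coeff_eq_zero (M.data c) A.u A.vv_lt l (by omega))
  · rw [coefK_coeff]
    subst hφ
    refine (map_coeff_congr (R := M.R) A.u (M.data_law c).symm p (N + 1)).trans ?_
    refine Eq.trans ?_ hv
    rw [hN]
    rfl

/-- the inverse of a unit of the homotopy ring as a map `𝟙 ⟶ K ⊗ S^{2N}` -/
theorem exists_w {N : ℕ} (b : (stdEven T).S N ⟶ K) (a : (stdEven T).S (-N) ⟶ K)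
    (hab : gmul (neg_add_cancel (N : ℤ)) a b = (stdEven T).zero.inv ≫ η[K]) :
    ∃ w : 𝟙_ T ⟶ K ⊗ Z.SC F N, w ≫ K ◁ (Z.sph e N ≫ b) ≫ μ[K] = η[K] ∧
      w ≫ K ◁ ((Z.sphId e).iso N).hom ≫ K ◁ (stdEven T).inPS (N : ℤ) = sharp a := by
  refine ⟨(stdEven T).zero.hom ≫ ((stdEven T).mu (-N) N 0 (neg_add_cancel (N : ℤ))).inv ≫
    (a ⊗ₘ inv (Z.sph e N)), ?_, ?_⟩
  · have h1 : (a ⊗ₘ inv (Z.sph e N)) ≫ K ◁ (Z.sph e N ≫ b) = a ⊗ₘ b := by
      rw [← id_tensorHom, tensorHom_comp_tensorHom]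
      simp
    rw [gmul, EvenSpheres.ext, Category.assoc] at hab
    simp only [Category.assoc]
    rw [reassoc_of% h1, hab, Iso.hom_inv_id_assoc]
  · have h1 : (a ⊗ₘ inv (Z.sph e N)) ≫ K ◁ (Z.sph e N ≫ (stdEven T).inPS (N : ℤ)) =
        a ⊗ₘ (stdEven T).inPS (N : ℤ) := by
      rw [← id_tensorHom, tensorHom_comp_tensorHom]
      simp
    have h2 : ((Z.sphId e).iso N).hom = Z.sph e N := rfl
    rw [h2, ← MonoidalCategory.whiskerLeft_comp, sharp_eq (neg_add_cancel (N : ℤ)),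
      EvenSpheres.ext]
    simp only [Category.assoc]
    rw [h1]

end T

section St

open P251.St (CP Cn Pn fc_cp fc_th fc_iff fc_Cn cpIso thIso cpHomeo isPair_conj' ofHom toLC ofLC
  CPSet toHom rθ sθ sOriented scA toHom_append)
open P241.St

variable {T : P251.St.SHCat} {S : P251.St.Susp T}

theorem hasPSeriesA_of {R : P251.St.RingSp T} {K : RingA T} (u : R.obj ⟶ K.obj) {p N : ℕ}
    (o : Z.Oriented S.toSpaceFunctor R.obj) (v : S.obj (Cn N) ⟶ K.obj)
    (w : 𝟙_ T.C ⟶ K.obj ⊗ S.obj (Cn N)) (hvw : w ≫ K.obj ◁ v ≫ μ[K.obj] = η[K.obj])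
    (h : ∀ (t : LC.of (Gr 1 (Fin (N + 2))) ⟶ LC.of (G.Th 1 (Fin p → Fin (N + 2))))
        (_ : Z.IsTensorPower p t)
        (e : LC.of (Gr 1 (Fin (N + 2))) ⟶ LC.of (G.Th (N + 1) (Fin (N + 1) × Fin (N + 2))))
        (_ : Z.IsMultiple (N + 1) e),
        (λ_ _).hom ≫ S.mapL e ≫ rθ o (N + 1) _ ≫ u ▷ S.obj (Cn (N + 1)) =
          (w ⊗ₘ (S.mapL t ≫ rθ o 1 _ ≫ u ▷ S.obj (Cn 1))) ≫
            tensorμ K.obj (S.obj (Cn N)) K.obj (S.obj (Cn 1)) ≫ (μ[K.obj] ⊗ₘ (scA S N).hom)) :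
    HasPSeriesA S K u p N (sOriented o) := by
  have hu : IsIso S.unit := S.unit_isIso
  refine ⟨v, inv S.unit ≫ w, ?_, ?_⟩
  · change S.unit ≫ (inv S.unit ≫ w) ≫ (𝟙 K.obj ⊗ₘ v) ≫ μ[K.obj] = η[K.obj]
    rw [Category.assoc, IsIso.hom_inv_id_assoc, MonoidalCategory.id_tensorHom]
    exact hvw
  · intro e t q he ht hq g hg
    have hG := Z.Cells.gr 1 (Fin (N + 2))
    have hG' := (fc_iff _).mp (fc_cp (Fin (N + 2)))
    have hE := Z.Cells.th (N + 1) (Fin (N + 1) × Fin (N + 2))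
    have hE' := (fc_iff _).mp (fc_th (N + 1) (Fin (N + 1) × Fin (N + 2)))
    have hT := Z.Cells.th 1 (Fin p → Fin (N + 2))
    have hT' := (fc_iff _).mp (fc_th 1 (Fin p → Fin (N + 2)))
    have he' : Z.IsMultiple (N + 1) ((cpIso (Fin (N + 2))).inv ≫ toHom e ≫
        (thIso (N + 1) (Fin (N + 1) × Fin (N + 2))).hom) :=
      isPair_conj' (X := CP (Fin (N + 2))) (X' := LC.of (Gr 1 (Fin (N + 2))))
        (cpHomeo (Fin (N + 2)))
        (P := fun (x : Gr 1 (Fin (N + 2))) (i j : Fin (N + 1) × Fin (N + 2)) =>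
          if i.1 = j.1 then x.P i.2 j.2 else 0) (v := fun _ => 0) he
    have ht' : Z.IsTensorPower p ((cpIso (Fin (N + 2))).inv ≫ toHom t ≫
        (thIso 1 (Fin p → Fin (N + 2))).hom) :=
      isPair_conj' (X := CP (Fin (N + 2))) (X' := LC.of (Gr 1 (Fin (N + 2))))
        (cpHomeo (Fin (N + 2)))
        (P := fun (x : Gr 1 (Fin (N + 2))) (i j : Fin p → Fin (N + 2)) =>
          ∏ k, x.P (i k) (j k)) (v := fun _ => 0) ht
    have h1 := h _ ht' _ he'
    -- the maps on the statement side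
    have ea : S.mapL (cpIso (Fin (N + 2))).hom ≫ S.mapL ((cpIso (Fin (N + 2))).inv ≫ toHom t ≫
        (thIso 1 (Fin p → Fin (N + 2))).hom) ≫ rθ o 1 _ = S.map t ≫ sθ o 1 _ := by
      rw [← Category.assoc, ← S.mapL_comp hG' hG hT, Iso.hom_inv_id_assoc,
        S.mapL_comp hG' hT' hT, Category.assoc]
      rfl
    have eb : S.mapL (cpIso (Fin (N + 2))).hom ≫ S.mapL ((cpIso (Fin (N + 2))).inv ≫ toHom e ≫
          (thIso (N + 1) (Fin (N + 1) × Fin (N + 2))).hom) ≫ rθ o (N + 1) _ =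
        S.map e ≫ sθ o (N + 1) _ := by
      rw [← Category.assoc, ← S.mapL_comp hG' hG hE, Iso.hom_inv_id_assoc,
        S.mapL_comp hG' hE' hE, Category.assoc]
      rfl
    have h5 : (λ_ (S.obj (CP (Fin (N + 2))))).hom ≫
        (S.map e ≫ sθ o (N + 1) _) ≫ u ▷ S.obj (Cn (N + 1)) =
        (w ⊗ₘ ((S.map t ≫ sθ o 1 _) ≫ u ▷ S.obj (Cn 1))) ≫
          tensorμ K.obj (S.obj (Cn N)) K.obj (S.obj (Cn 1)) ≫ (μ[K.obj] ⊗ₘ (scA S N).hom) := by
      rw [← ea, ← eb]
      have h2 := congrArg (fun k => (𝟙_ T.C) ◁ S.mapL (cpIso (Fin (N + 2))).hom ≫ k) h1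
      simp only [Category.assoc] at h2 ⊢
      rw [← leftUnitor_naturality_assoc, h2, ← id_tensorHom, tensorHom_comp_tensorHom_assoc,
        Category.id_comp]
    have h6 := S.mul_unit (X := CP (Fin (N + 2))) q (fc_cp _) (fun x => by
      induction x using OnePoint.rec with
      | infty => exact q.map_infty
      | coe x => exact hq x)
    have h7 : (S.unit ⊗ₘ 𝟙 (S.obj (CP (Fin (N + 2))))) ≫ S.mul Pn (CP (Fin (N + 2))) ≫ S.map q =
        (λ_ (S.obj (CP (Fin (N + 2))))).hom := h6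
    have hg' : P251.St.toHom g = (Z.appIso N 1).hom := toHom_append g hg
    have h8 : S.mul Pn (CP (Fin (N + 2))) ≫ S.map q ≫
        (S.map e ≫ sθ o (N + 1) _) ≫ u ▷ S.obj (Cn (N + 1)) =
        ((inv S.unit ≫ w) ⊗ₘ ((S.map t ≫ sθ o 1 _) ≫ u ▷ S.obj (Cn 1))) ≫
          tensorμ K.obj (S.obj (Cn N)) K.obj (S.obj (Cn 1)) ≫
            (μ[K.obj] ⊗ₘ (scA S N).hom) := by
      refine (cancel_epi (S.unit ⊗ₘ 𝟙 (S.obj (CP (Fin (N + 2)))))).mp ?_
      refine Eq.trans (b := (λ_ (S.obj (CP (Fin (N + 2))))).hom ≫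
        (S.map e ≫ sθ o (N + 1) _) ≫ u ▷ S.obj (Cn (N + 1))) ?_ ?_
      · rw [← h7]
        simp only [Category.assoc]
      · rw [h5, MonoidalCategory.tensorHom_comp_tensorHom_assoc, IsIso.hom_inv_id_assoc,
          Category.id_comp]
    have h9 : (scA S N).hom = S.mul (Cn N) (Cn 1) ≫ S.map g := by
      change S.mul (Cn N) (Cn 1) ≫ S.mapL (Z.appIso N 1).hom = _
      rw [← hg']
      rfl
    rw [h9, ← MonoidalCategory.tensorHom_id, ← MonoidalCategory.tensorHom_id, Category.assoc,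
      Category.assoc] at h8
    exact h8

/-- **The bridge**: an associative Morava `K`-theory under `MU` is a Morava `K`-theory in the
sense of the statement. -/
theorem isMoravaK_of_KA {e : S.toSpaceFunctor.S.obj CCF ≅ (stdEven T.C).L}
    (M : MUMon S.toSpaceFunctor (stdEven T.C) e) (c : MUBasis M.V) {p n : ℕ} [Fact p.Prime]
    (hn : n ≠ 0) {K : RingA T} (A : KA (M.data c) p n K.obj) : IsMoravaK S p n K := by
  obtain ⟨N, hN⟩ : ∃ N, N + 1 = p ^ n :=
    ⟨p ^ n - 1, Nat.sub_add_cancel (Nat.one_le_pow _ _ (Fact.out : p.Prime).pos)⟩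
  have hN' : p ^ n - 1 = N := by omega
  let φ : M.R ⟶ K.obj := A.u
  have hφ : IsMonHom φ := A.hom
  let R : P251.St.RingSp T := ⟨M.R⟩
  obtain ⟨b, a, hab, h0, h1⟩ := KA.exists_height M c A hN φ rfl
  obtain ⟨w, hw, hw'⟩ := exists_w (e := e) b a hab
  have h2 : HasPSeriesA (R := R) S K φ p N
      (sOriented (R := R) (X.oriOf e M.fam)) := by
    refine hasPSeriesA_of (R := R) φ (X.oriOf e M.fam) (Z.sph e N ≫ b) w hw
      fun t ht g hg => ?_
    exact push_height (X.oriOf e M.fam) M.fam (X.isFam_oriOf e M.fam) φ p N h0 b h1 a hab w hw'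
      t ht g hg (Z.appIso N 1) (Z.isAppend_appIso N 1)
  unfold IsMoravaK
  rw [if_neg hn]
  refine ⟨⟨fun j f hj => ?_, A.char, A.ne, A.gen⟩, R, φ, hφ,
    sOriented (R := R) (X.oriOf e M.fam), ?_⟩
  · change (𝟙_ T.C)⟦j⟧ ⟶ K.obj at f
    rcases Int.even_or_odd' j with ⟨m, rfl | rfl⟩
    · rw [← cancel_epi ((stdEven T.C).sphIso (Iso.refl _) m).hom, comp_zero]
      refine A.sparse m (fun hd => hj ?_) _
      exact mul_dvd_mul_left 2 hd
    · exact A.odd m f
  · rw [hN']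
    exact h2

end St

end Vale.Agent.P241.EX
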