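import Vale.Agent.P241.H618.RepMonA
import Vale.Agent.P251.X.RepHom

/-!
# P241, EX (associative version of P251, part X): monoids from homology theories with values in vector spaces

`HomTh k C`: a homology theory `V` with values in `k`-vector spaces;
`OpThA k T`: such a theory on a tensor triangulated category with an oplax monoidal
structure `r : V(X ⊗ Y) → V X ⊗ V Y`. Then there is a monoid `K` with
`Hom(W, K) = Hom_k(V W, k)`.
-/

open CategoryTheory MonoidalCategory Limits Pretriangulated MonObj
open scoped TensorProduct DirectSum

universe w v u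

noncomputable section

namespace Vale.Agent.P241.EX

open Vale.Agent.P251 Vale.Agent.P251.X
open Vale.Agent.P251.H Vale.Agent.P251.T

set_option linter.unusedSectionVars false

/-! ### Oplax monoidal theories -/

section op

variable (k : Type) [Field k] (T : Type u) [Category.{v} T] [Preadditive T] [HasZeroObject T]
  [HasShift T ℤ] [∀ n : ℤ, (shiftFunctor T n).Additive] [Pretriangulated T] [HasCoproducts.{0} T]
  [MonoidalCategory T] [SymmetricCategory T]

/-- A homology theory with an oplax monoidal structure. -/
structure OpThA extends HomTh.{w} k T where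
  /-- the comparison with the tensor product -/
  r (X Y : T) : V (X ⊗ Y) →ₗ[k] V X ⊗[k] V Y
  /-- the counit -/
  c : V (𝟙_ T) →ₗ[k] k
  r_nat {X X' Y Y' : T} (f : X ⟶ X') (g : Y ⟶ Y') (x : V (X ⊗ Y)) :
    r X' Y' (map (f ⊗ₘ g) x) = TensorProduct.map (map f) (map g) (r X Y x)
  r_assoc (X Y Z : T) (x : V ((X ⊗ Y) ⊗ Z)) :
    TensorProduct.assoc k (V X) (V Y) (V Z)
      (TensorProduct.map (r X Y) LinearMap.id (r (X ⊗ Y) Z x)) =
      TensorProduct.map LinearMap.id (r Y Z) (r X (Y ⊗ Z) (map (α_ X Y Z).hom x))
  r_unit (X : T) (x : V (𝟙_ T ⊗ X)) :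
    TensorProduct.lid k (V X) (TensorProduct.map c LinearMap.id (r (𝟙_ T) X x)) =
      map (λ_ X).hom x
  r_unit_right (X : T) (x : V (X ⊗ 𝟙_ T)) :
    TensorProduct.rid k (V X) (TensorProduct.map LinearMap.id c (r X (𝟙_ T) x)) =
      map (ρ_ X).hom x

variable {k T}

namespace OpThA

variable (F : OpThA.{w} k T)

/-- The external product of functionals. -/
def crossD {X Y : T} (φ : Module.Dual k (F.V X)) (ψ : Module.Dual k (F.V Y)) :
    Module.Dual k (F.V (X ⊗ Y)) :=
  (TensorProduct.lid k k).toLinearMap.comp ((TensorProduct.map φ ψ).comp (F.r X Y))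

theorem crossD_apply {X Y : T} (φ : Module.Dual k (F.V X)) (ψ : Module.Dual k (F.V Y))
    (x : F.V (X ⊗ Y)) :
    F.crossD φ ψ x = TensorProduct.lid k k (TensorProduct.map φ ψ (F.r X Y x)) := rfl

/-- The presheaf of functionals. -/
def pre : LaxPreA.{w} T where
  D X := Module.Dual k (F.V X)
  pull f φ := φ.comp (F.map f)
  pull_id φ := by rw [F.map_id, LinearMap.comp_id]
  pull_comp f g φ := by rw [F.map_comp, LinearMap.comp_assoc]
  cross φ ψ := F.crossD φ ψ
  one := F.c
  cross_pull {X X' Y Y'} f g φ ψ := by
    apply LinearMap.ext
    intro x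
    rw [LinearMap.comp_apply, crossD_apply, crossD_apply, F.r_nat, TensorProduct.map_comp,
      LinearMap.comp_apply]
  cross_assoc {X Y Z} φ ψ χ := by
    apply LinearMap.ext
    intro x
    have key : ∀ y : F.V (X ⊗ Y) ⊗[k] F.V Z,
        TensorProduct.lid k k (TensorProduct.map (F.crossD φ ψ) χ y) =
          TensorProduct.lid k k (TensorProduct.map φ
            ((TensorProduct.lid k k).toLinearMap.comp (TensorProduct.map ψ χ))
            (TensorProduct.assoc k (F.V X) (F.V Y) (F.V Z)
              (TensorProduct.map (F.r X Y) LinearMap.id y))) := by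
      intro y
      induction y using TensorProduct.induction_on with
      | zero => simp
      | add y y' h h' => simp only [map_add, h, h']
      | tmul a b =>
        rw [TensorProduct.map_tmul, TensorProduct.map_tmul, crossD_apply]
        generalize F.r X Y a = z
        induction z using TensorProduct.induction_on with
        | zero => simp
        | add z z' h h' => simp only [map_add, TensorProduct.add_tmul, h, h']
        | tmul c d => simp [_root_.mul_assoc]
    have key2 : ∀ y : F.V X ⊗[k] F.V (Y ⊗ Z),
        TensorProduct.lid k k (TensorProduct.map φ (F.crossD ψ χ) y) =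
          TensorProduct.lid k k (TensorProduct.map φ
            ((TensorProduct.lid k k).toLinearMap.comp (TensorProduct.map ψ χ))
              (TensorProduct.map LinearMap.id (F.r Y Z) y)) := by
      intro y
      induction y using TensorProduct.induction_on with
      | zero => simp
      | add y y' h h' => simp only [map_add, h, h']
      | tmul a b => rfl
    rw [LinearMap.comp_apply, crossD_apply, crossD_apply, key, key2, F.r_assoc]
  one_cross {X} φ := by
    apply LinearMap.ext
    intro x
    have key : ∀ y : F.V (𝟙_ T) ⊗[k] F.V X,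
        TensorProduct.lid k k (TensorProduct.map F.c φ y) =
          φ (TensorProduct.lid k (F.V X) (TensorProduct.map F.c LinearMap.id y)) := by
      intro y
      induction y using TensorProduct.induction_on with
      | zero => simp
      | add y y' h h' => simp only [map_add, h, h']
      | tmul a b => simp
    rw [LinearMap.comp_apply, crossD_apply, key, F.r_unit]
  cross_one {X} φ := by
    apply LinearMap.ext
    intro x
    have key : ∀ y : F.V X ⊗[k] F.V (𝟙_ T),
        TensorProduct.lid k k (TensorProduct.map φ F.c y) =
          φ (TensorProduct.rid k (F.V X) (TensorProduct.map LinearMap.id F.c y)) := by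
      intro y
      induction y using TensorProduct.induction_on with
      | zero => simp
      | add y y' h h' => simp only [map_add, h, h']
      | tmul a b => simp [_root_.mul_comm]
    rw [LinearMap.comp_apply, crossD_apply, key, F.r_unit_right]

/-- **The representing monoid.** -/
theorem exists_monoid [LocallySmall.{0} T] {G : T} (hc : IsCpt G) (hg : IsGen G)
    (hF : ∀ n : ℤ, Small.{0} (F.V (G⟦n⟧))) : ∃ K : T, Nonempty (F.pre.Rep K) := by
  obtain ⟨K, u, h⟩ := F.toHomTh.exists_rep hc hg hF
  exact ⟨K, ⟨⟨u, h⟩⟩⟩

end OpThA

end op

end Vale.Agent.P241.EX
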