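import Vale.Agent.P241.H618.RLaxA
import Vale.Agent.P241.H618.RepHomA
import Vale.Agent.P251.X.OpOf

/-!
# P241, EX (associative version of P251, part X)5: the oplax theory

`LaxThA.opThA K s g : OpThA k T` : the degree `0` part of a graded lax theory with sphere data.
-/

open CategoryTheory MonoidalCategory Limits Pretriangulated
open scoped TensorProduct DirectSum

universe w v u

noncomputable section

namespace Vale.Agent.P241.EX

open Vale.Agent.P251 Vale.Agent.P251.X
open Vale.Agent.P251.H Vale.Agent.P251.T Vale.Agent.P251.M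

set_option linter.unusedSectionVars false

namespace LaxThA

section gra

variable {k : Type} [Field k] {T : Type u} [Category.{v} T] [Preadditive T] [HasZeroObject T]
  [HasShift T ℤ] [∀ n : ℤ, (shiftFunctor T n).Additive] [Pretriangulated T] [HasCoproducts.{0} T]
  [MonoidalCategory T] [SymmetricCategory T] {F : LaxThA.{w} k T} {A : Type} [AddCommGroup A]
  (g : F.Gra A)

namespace Gra

@[elab_as_elim]
theorem induct {X : T} {motive : F.V X → Prop} (x : F.V X) (zero : motive 0)
    (add : ∀ x y, motive x → motive y → motive (x + y))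
    (hom : ∀ (i : A) (x : F.V X), x ∈ g.H i X → motive x) : motive x := by
  have h : x ∈ ⨆ i, g.H i X := by
    rw [g.span]
    trivial
  exact Submodule.iSup_induction (fun i => g.H i X) (motive := motive) h hom zero add

theorem pr_mem (X : T) (x : F.V X) : g.pr X x ∈ g.H 0 X := by
  refine g.induct x ?_ ?_ ?_
  · rw [_root_.map_zero]
    exact Submodule.zero_mem _
  · intro x y hx hy
    rw [_root_.map_add]
    exact Submodule.add_mem _ hx hy
  · intro i x hx
    by_cases hi : i = 0
    · subst hi
      rw [g.pr_zero hx]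
      exact hx
    · rw [g.pr_ne hi hx]
      exact Submodule.zero_mem _

theorem pr_nat {X Y : T} (f : X ⟶ Y) (x : F.V X) : g.pr Y (F.map f x) = F.map f (g.pr X x) := by
  refine g.induct x ?_ ?_ ?_
  · simp only [_root_.map_zero]
  · intro x y hx hy
    simp only [_root_.map_add, hx, hy]
  · intro i x hx
    by_cases hi : i = 0
    · subst hi
      rw [g.pr_zero hx, g.pr_zero (g.map f hx)]
    · rw [g.pr_ne hi hx, g.pr_ne hi (g.map f hx), _root_.map_zero]

/-- the projection to the degree `0` part -/
def prr (X : T) : F.V X →ₗ[k] g.H 0 X := (g.pr X).codRestrict _ (g.pr_mem X)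

theorem prr_coe {X : T} (x : F.V X) : ((g.prr X x : g.H 0 X) : F.V X) = g.pr X x := rfl

theorem prr_subtype {X : T} (x : g.H 0 X) : g.prr X (x : F.V X) = x :=
  Subtype.ext (g.pr_zero x.2)

theorem prr_ne {X : T} {i : A} (hi : i ≠ 0) {x : F.V X} (hx : x ∈ g.H i X) : g.prr X x = 0 :=
  Subtype.ext (g.pr_ne hi hx)

/-- the degree `0` part of the theory -/
def th : HomTh.{w} k T :=
  F.toHomTh.sub (fun X => g.H 0 X) (fun f _ hx => g.map f hx) g.pr g.pr_mem
    (fun hx => g.pr_zero hx) g.pr_nat

/-- the maps on the degree `0` part -/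
def hmap {X Y : T} (f : X ⟶ Y) : g.H 0 X →ₗ[k] g.H 0 Y := g.th.map f

theorem hmap_coe {X Y : T} (f : X ⟶ Y) (x : g.H 0 X) :
    ((g.hmap f x : g.H 0 Y) : F.V Y) = F.map f x := rfl

theorem hmap_prr {X Y : T} (f : X ⟶ Y) (x : F.V X) :
    g.hmap f (g.prr X x) = g.prr Y (F.map f x) :=
  Subtype.ext (g.pr_nat f x).symm

end Gra

end gra

section op

variable {k : Type} [Field k] {T : Type u} [Category.{v} T] [Preadditive T] [HasZeroObject T]
  [HasShift T ℤ] [∀ n : ℤ, (shiftFunctor T n).Additive] [Pretriangulated T]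
  [MonoidalCategory T] [SymmetricCategory T] [TensorTriangulated T] [MonoidalClosed T]
  [HasCoproducts.{0} T] {F : LaxThA.{w} k T} {A : Type} [AddCommGroup A]

theorem Sph.bij_one {E : EvenSpheres T} (s : F.Sph E) :
    Function.Bijective (LinearMap.toSpanSingleton k (F.V (𝟙_ T)) F.e) := by
  constructor
  · rw [injective_iff_map_eq_zero]
    intro c hc
    rw [LinearMap.toSpanSingleton_apply] at hc
    exact (smul_eq_zero.1 hc).resolve_right s.ne
  · intro x
    obtain ⟨c, rfl⟩ := s.one x
    exact ⟨c, LinearMap.toSpanSingleton_apply _ _ _ _⟩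

/-- the counit -/
def Sph.c {E : EvenSpheres T} (s : F.Sph E) : F.V (𝟙_ T) →ₗ[k] k :=
  (LinearEquiv.ofBijective _ s.bij_one).symm.toLinearMap

theorem Sph.c_e {E : EvenSpheres T} (s : F.Sph E) : s.c F.e = 1 := by
  change (LinearEquiv.ofBijective _ s.bij_one).symm F.e = 1
  rw [LinearEquiv.symm_apply_eq, LinearEquiv.ofBijective_apply,
    LinearMap.toSpanSingleton_apply, one_smul]

variable (K : F.Kun) (g : F.Gra A)

theorem prr_R_pr (X Y : T) (w : F.V (X ⊗ Y)) :
    TensorProduct.map (g.prr X) (g.prr Y) (R K X Y (g.pr (X ⊗ Y) w)) =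
      TensorProduct.map (g.prr X) (g.prr Y) (R K X Y w) := by
  have h : (TensorProduct.map (g.prr X) (g.prr Y)).comp ((R K X Y).comp (g.pr (X ⊗ Y))) =
      (TensorProduct.map (g.prr X) (g.prr Y)).comp (R K X Y) := by
    refine hom_ext_kun K (fun x y => ?_) fun a b => ?_
    · simp only [LinearMap.comp_apply]
      refine g.induct x ?_ ?_ ?_
      · simp only [_root_.map_zero, LinearMap.zero_apply]
      · intro x x' hx hx'
        simp only [_root_.map_add, LinearMap.add_apply, hx, hx']
      · intro i x hx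
        refine g.induct y ?_ ?_ ?_
        · simp only [_root_.map_zero]
        · intro y y' hy hy'
          simp only [_root_.map_add, hy, hy']
        · intro j y hy
          by_cases hij : i + j = 0
          · have h1 := g.mul hx hy
            rw [hij] at h1
            rw [g.pr_zero h1]
          · rw [g.pr_ne hij (g.mul hx hy), _root_.map_zero, _root_.map_zero, R_m,
              TensorProduct.map_tmul]
            by_cases hi : i = 0
            · have hj : j ≠ 0 := by
                rintro rfl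
                exact hij (by rw [hi, add_zero])
              rw [g.prr_ne hj hy, TensorProduct.tmul_zero]
            · rw [g.prr_ne hi hx, TensorProduct.zero_tmul]
    · simp only [LinearMap.comp_apply]
      refine g.induct a ?_ ?_ ?_
      · simp only [_root_.map_zero, LinearMap.zero_apply]
      · intro x x' hx hx'
        simp only [_root_.map_add, LinearMap.add_apply, hx, hx']
      · intro i x hx
        refine g.induct b ?_ ?_ ?_
        · simp only [_root_.map_zero]
        · intro y y' hy hy'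
          simp only [_root_.map_add, hy, hy']
        · intro j y hy
          have h1 : F.mm negOne.hom X Y x y ∈ g.H (i + j) (X ⊗ Y) := g.map _ (g.mul hx hy)
          by_cases hij : i + j = 0
          · rw [hij] at h1
            rw [g.pr_zero h1]
          · rw [g.pr_ne hij h1, R_mm, _root_.map_zero]
  exact DFunLike.congr_fun h w

/-- the comparison on the degree `0` part -/
def r (X Y : T) : g.H 0 (X ⊗ Y) →ₗ[k] g.H 0 X ⊗[k] g.H 0 Y :=
  (TensorProduct.map (g.prr X) (g.prr Y)).comp ((R K X Y).comp (g.H 0 (X ⊗ Y)).subtype)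

theorem r_apply (X Y : T) (w : g.H 0 (X ⊗ Y)) :
    r K g X Y w = TensorProduct.map (g.prr X) (g.prr Y) (R K X Y (w : F.V (X ⊗ Y))) := rfl

theorem r_prr (X Y : T) (w : F.V (X ⊗ Y)) :
    r K g X Y (g.prr (X ⊗ Y) w) = TensorProduct.map (g.prr X) (g.prr Y) (R K X Y w) :=
  prr_R_pr K g X Y w

theorem r_m (X Y : T) (x : g.H 0 X) (y : g.H 0 Y)
    (h : F.m X Y (x : F.V X) (y : F.V Y) ∈ g.H 0 (X ⊗ Y)) :
    r K g X Y ⟨F.m X Y x y, h⟩ = x ⊗ₜ[k] y := by
  rw [r_apply, R_m, TensorProduct.map_tmul, g.prr_subtype, g.prr_subtype]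

theorem r_nat {X X' Y Y' : T} (f : X ⟶ X') (f' : Y ⟶ Y') (w : g.H 0 (X ⊗ Y)) :
    r K g X' Y' (g.hmap (f ⊗ₘ f') w) =
      TensorProduct.map (g.hmap f) (g.hmap f') (r K g X Y w) := by
  rw [← g.prr_subtype w, g.hmap_prr, r_prr, r_prr, R_nat]
  generalize R K X Y (w : F.V (X ⊗ Y)) = t
  induction t using TensorProduct.induction_on with
  | zero => simp only [_root_.map_zero]
  | add a b ha hb => simp only [_root_.map_add, ha, hb]
  | tmul x y => simp only [TensorProduct.map_tmul, g.hmap_prr]

theorem r_assoc (X Y Z : T) (w : g.H 0 ((X ⊗ Y) ⊗ Z)) :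
    TensorProduct.assoc k (g.H 0 X) (g.H 0 Y) (g.H 0 Z)
        (TensorProduct.map (r K g X Y) LinearMap.id (r K g (X ⊗ Y) Z w)) =
      TensorProduct.map LinearMap.id (r K g Y Z)
        (r K g X (Y ⊗ Z) (g.hmap (α_ X Y Z).hom w)) := by
  rw [← g.prr_subtype w, g.hmap_prr, r_prr, r_prr]
  have e1 : ∀ t : F.V (X ⊗ Y) ⊗[k] F.V Z,
      TensorProduct.assoc k (g.H 0 X) (g.H 0 Y) (g.H 0 Z)
        (TensorProduct.map (r K g X Y) LinearMap.id
          (TensorProduct.map (g.prr (X ⊗ Y)) (g.prr Z) t)) =
      TensorProduct.map (g.prr X) (TensorProduct.map (g.prr Y) (g.prr Z))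
        (TensorProduct.assoc k (F.V X) (F.V Y) (F.V Z)
          (TensorProduct.map (R K X Y) LinearMap.id t)) := by
    intro t
    induction t using TensorProduct.induction_on with
    | zero => simp only [_root_.map_zero]
    | add a b ha hb => simp only [_root_.map_add, ha, hb]
    | tmul x z =>
      simp only [TensorProduct.map_tmul, r_prr, LinearMap.id_apply]
      generalize R K X Y x = t
      induction t using TensorProduct.induction_on with
      | zero => simp only [_root_.map_zero, TensorProduct.zero_tmul]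
      | add a b ha hb => simp only [_root_.map_add, TensorProduct.add_tmul, ha, hb]
      | tmul x y => simp only [TensorProduct.map_tmul, TensorProduct.assoc_tmul]
  have e2 : ∀ t : F.V X ⊗[k] F.V (Y ⊗ Z),
      TensorProduct.map LinearMap.id (r K g Y Z)
          (TensorProduct.map (g.prr X) (g.prr (Y ⊗ Z)) t) =
      TensorProduct.map (g.prr X) (TensorProduct.map (g.prr Y) (g.prr Z))
        (TensorProduct.map LinearMap.id (R K Y Z) t) := by
    intro t
    induction t using TensorProduct.induction_on with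
    | zero => simp only [_root_.map_zero]
    | add a b ha hb => simp only [_root_.map_add, ha, hb]
    | tmul x z => simp only [TensorProduct.map_tmul, r_prr, LinearMap.id_apply]
  rw [e1, e2, R_assoc]

theorem r_unit (s : F.Sph (stdEven T)) (X : T) (w : g.H 0 (𝟙_ T ⊗ X)) :
    TensorProduct.lid k (g.H 0 X) (TensorProduct.map (s.c.comp (g.H 0 (𝟙_ T)).subtype)
      LinearMap.id (r K g (𝟙_ T) X w)) = g.hmap (λ_ X).hom w := by
  have h1 : (w : F.V (𝟙_ T ⊗ X)) = F.m (𝟙_ T) X F.e (F.map (λ_ X).hom w) := by
    rw [← F.m_unit_inv, ← F.toHomTh.map_comp_apply, Iso.hom_inv_id, F.toHomTh.map_id_apply]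
  rw [r_apply, h1, R_m, TensorProduct.map_tmul, TensorProduct.map_tmul,
    TensorProduct.lid_tmul, LinearMap.comp_apply, Submodule.subtype_apply, g.prr_coe,
    g.pr_zero g.e, s.c_e, one_smul, LinearMap.id_apply]
  exact Subtype.ext (g.pr_zero (g.map (λ_ X).hom w.2))

theorem r_unit_right (s : F.Sph (stdEven T)) (X : T) (w : g.H 0 (X ⊗ 𝟙_ T)) :
    TensorProduct.rid k (g.H 0 X) (TensorProduct.map LinearMap.id
      (s.c.comp (g.H 0 (𝟙_ T)).subtype) (r K g X (𝟙_ T) w)) = g.hmap (ρ_ X).hom w := by
  have h1 : (w : F.V (X ⊗ 𝟙_ T)) = F.m X (𝟙_ T) (F.map (ρ_ X).hom w) F.e := by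
    rw [← F.m_unit_right_inv, ← F.toHomTh.map_comp_apply, Iso.hom_inv_id, F.toHomTh.map_id_apply]
  rw [r_apply, h1, R_m, TensorProduct.map_tmul, TensorProduct.map_tmul,
    TensorProduct.rid_tmul, LinearMap.comp_apply, Submodule.subtype_apply, g.prr_coe,
    g.pr_zero g.e, s.c_e, one_smul, LinearMap.id_apply]
  exact Subtype.ext (g.pr_zero (g.map (ρ_ X).hom w.2))

/-- **The oplax theory.** -/
def opThA (s : F.Sph (stdEven T)) : OpThA.{w} k T where
  toHomTh := g.th
  r X Y := r K g X Y
  c := s.c.comp (g.H 0 (𝟙_ T)).subtype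
  r_nat f f' w := r_nat K g f f' w
  r_assoc X Y Z w := r_assoc K g X Y Z w
  r_unit X w := r_unit K g s X w
  r_unit_right X w := r_unit_right K g s X w

end op

end LaxThA

end Vale.Agent.P241.EX
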