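import Vale.Agent.P251.X.Small
import Vale.Agent.P241.H618.OpOfA

/-!
# P241, EX: the representing monoid of the oplax theory of a lax theory (no commutativity)

* `LaxThA.kun` : the Künneth theorem for a lax theory with sphere data;
* `LaxThA.exists_rep` : the monoid which represents the degree `0` part.
-/

open CategoryTheory MonoidalCategory Limits Pretriangulated MonObj

set_option linter.unusedSectionVars false

universe w v u

namespace Vale.Agent.P241.EX

open Vale.Agent.P251 Vale.Agent.P251.X
open Vale.Agent.P251.T Vale.Agent.P251.M Vale.Agent.P251.M.EvenSpheres Vale.Agent.P251.H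

section rep

variable {k : Type} [Field k] {T : Type u} [Category.{v} T] [Preadditive T] [HasZeroObject T]
    [HasShift T ℤ] [∀ n : ℤ, (shiftFunctor T n).Additive] [Pretriangulated T] [IsTriangulated T]
    [MonoidalCategory T] [SymmetricCategory T] [TensorTriangulated T] [MonoidalClosed T]
    [HasCoproducts.{0} T] [HasProducts.{0} T] [StableCat T] [LocallySmall.{0} T]

theorem LaxThA.kun {F : LaxThA.{w} k T} (s : F.Sph (stdEven T)) : F.Kun :=
  fun Y X => F.kap_bij unit_isCpt unit_isGen s Y X

/-- The monoid which represents the degree `0` part of a graded lax theory. -/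
theorem LaxThA.exists_rep {F : LaxThA.{w} k T} (hF : ∀ X, Small.{0} (F.V X)) {A : Type}
    [AddCommGroup A] (K : F.Kun) (g : F.Gra A) (s : F.Sph (stdEven T)) :
    ∃ M : T, Nonempty ((LaxThA.opThA K g s).pre.Rep M) := by
  refine OpThA.exists_monoid _ unit_isCpt unit_isGen fun n => ?_
  have := hF ((𝟙_ T)⟦n⟧)
  exact small_of_injective (β := F.V ((𝟙_ T)⟦n⟧))
    (f := fun x : g.H 0 ((𝟙_ T)⟦n⟧) => (x : F.V ((𝟙_ T)⟦n⟧))) Subtype.val_injective

end rep

end Vale.Agent.P241.EX
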