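import Vale.Agent.P241.H618.PhiMonA
import Vale.Agent.P241.H618.SmallA
import Vale.Agent.P251.X.PiBase
import Vale.Agent.P241.H795.KA

/-!
# P241, EX: the Morava K-theory from the representing monoid (associative version)

`ka_of` : let `F` be a lax theory over `𝔽_p` (no commutativity) with sphere data `s` and a grading
by `ZMod (p ^ n - 1)` for which `s.g j` has degree `j`, and `t` a multiplicative functional on
`F.V MU` with `t (v_n) ≠ 0`. Then the representing monoid `K` of the degree `0` part is an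
associative Morava `K`-theory `KA D p n K` under `MU`.
-/

open CategoryTheory MonoidalCategory Limits Pretriangulated MonObj
open scoped TensorProduct

universe w v u

noncomputable section

namespace Vale.Agent.P241.EX

open Vale.Agent.P251 Vale.Agent.P251.X

open Vale.Agent.P251.H Vale.Agent.P251.T Vale.Agent.P251.M Vale.Agent.P251.M.EvenSpheres
  Vale.Agent.P251.S Vale.Agent.P251.F Vale.Agent.P251.I

set_option linter.unusedSectionVars false

variable {T : Type u} [Category.{v} T] [Preadditive T] [HasZeroObject T]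
    [HasShift T ℤ] [∀ n : ℤ, (shiftFunctor T n).Additive] [Pretriangulated T] [IsTriangulated T]
    [MonoidalCategory T] [SymmetricCategory T] [TensorTriangulated T] [MonoidalClosed T]
    [HasCoproducts.{0} T] [HasProducts.{0} T] [StableCat T] {D : MUData T}
  {p n : ℕ} [hp : Fact p.Prime] {F : LaxThA.{w} (ZMod p) T} (KU : F.Kun)

section rep

variable {A : Type} [AddCommGroup A] (g : F.Gra A) (s : F.Sph (stdEven T)) {K : T}
  (rep : (LaxThA.opThA KU g s).pre.Rep K)

include rep in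
theorem rep_odd0 : Odd0 K := by
  intro l f
  apply LaxThA.fn_injective KU g s rep
  rintro ⟨x, hx⟩
  obtain rfl := s.odd l x
  have h2 : (⟨0, hx⟩ : g.H 0 ((𝟙_ T)⟦(2 * l + 1 : ℤ)⟧)) = 0 := rfl
  rw [h2, map_zero, map_zero]

/-- the functionals, as an additive map -/
def fnHom {X : T} (x : g.H 0 X) : (X ⟶ K) →+ ZMod p :=
  AddMonoidHom.mk' (fun f => LaxThA.fn KU g s rep f x) fun f f' =>
    LaxThA.fn_add KU g s rep f f' x

theorem fn_zsmul {X : T} (m : ℤ) (f : X ⟶ K) (x : g.H 0 X) :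
    LaxThA.fn KU g s rep (m • f) x = m • LaxThA.fn KU g s rep f x :=
  map_zsmul (fnHom KU g s rep x) m f

include rep in
theorem rep_char {X : T} (f : X ⟶ K) : (p : ℤ) • f = 0 := by
  apply LaxThA.fn_injective KU g s rep
  intro x
  rw [fn_zsmul, LaxThA.fn_zero, zsmul_eq_mul, Int.cast_natCast, CharP.cast_eq_zero, zero_mul]

theorem rep_one_ne :
    letI := rep.monObj
    (η[K] : 𝟙_ T ⟶ K) ≠ 0 := by
  let _ := rep.monObj
  intro h
  have h1 := LaxThA.fn_one KU g s rep ⟨F.e, g.e⟩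
  rw [h, LaxThA.fn_zero] at h1
  exact zero_ne_one (h1.trans s.c_e)

theorem rep_gen (f : 𝟙_ T ⟶ K) :
    letI := rep.monObj
    ∃ a : ℤ, f = a • (η[K] : 𝟙_ T ⟶ K) := by
  let _ := rep.monObj
  refine ⟨((LaxThA.fn KU g s rep f ⟨F.e, g.e⟩).val : ℤ), ?_⟩
  apply LaxThA.fn_injective KU g s rep
  rintro ⟨x, hx⟩
  obtain ⟨c, rfl⟩ := s.one x
  have e : (⟨c • F.e, hx⟩ : g.H 0 (𝟙_ T)) = c • ⟨F.e, g.e⟩ := rfl
  have h1 : LaxThA.fn KU g s rep η[K] ⟨F.e, g.e⟩ = 1 :=
    (LaxThA.fn_one KU g s rep ⟨F.e, g.e⟩).trans s.c_e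
  rw [e, map_smul, map_smul, fn_zsmul, h1, zsmul_eq_mul, _root_.mul_one, Int.cast_natCast,
    ZMod.natCast_zmod_val]

end rep

theorem cast_pn : ((p ^ n - 1 : ℕ) : ℤ) = (p : ℤ) ^ n - 1 := by
  rw [Nat.cast_sub (Nat.one_le_pow _ _ hp.out.pos)]
  push_cast
  ring

theorem map_vv_eq (D : MUData T) {N : T} [MonObj N] (u : D.R ⟶ N) [IsMonHom u] (p i : ℕ) :
    HRing.map u (vv p i D.law) = HRing.of (stdEven T) N _ (D.vel p i ≫ u) := by
  rw [D.vel_spec, HRing.map_of]

/-- **The Morava K-theory** (associative) from the representing monoid. -/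
theorem ka_of_rep (g : F.Gra (ZMod (p ^ n - 1))) (s : F.Sph (stdEven T)) {K : T}
    (rep : (LaxThA.opThA KU g s).pre.Rep K)
    (hd : ∀ j : ℤ, s.g j ∈ g.H (j : ZMod (p ^ n - 1)) ((stdEven T).S j))
    {t : F.V D.R →ₗ[ZMod p] ZMod p} (ht : LaxThA.MulFun t)
    (h0 : ∀ x : F.V (D.R ⊗ LaxThA.Lm T), x = 0) (hpr : ∀ x, t (g.pr D.R x) = t x)
    (hv : t (F.map (D.vel p n) (s.g ((p : ℤ) ^ n - 1))) ≠ 0) :
    letI := rep.monObj
    Nonempty (H795.KA D p n K) := by
  let iM : MonObj K := rep.monObj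
  let φ : D.R ⟶ K := LaxThA.homOf KU g s rep t
  have iφ : IsMonHom φ := LaxThA.isMonHom_homOf KU g s rep ht h0 hpr
  have hsp : ∀ (m : ℤ), ¬ ((p : ℤ) ^ n - 1 ∣ m) → ∀ f : (stdEven T).S m ⟶ K, f = 0 := by
    intro m hm f
    refine LaxThA.eq_zero_of_ne KU g s rep (a := (m : ZMod (p ^ n - 1))) ?_ (hd m) f
    rw [Ne, ZMod.intCast_zmod_eq_zero_iff_dvd, cast_pn]
    exact hm
  have hdeg : ∀ m : ℤ, (m : ZMod (p ^ n - 1)) = 0 → s.g m ∈ g.H 0 ((stdEven T).S m) :=
    fun m hm => by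
      have h := hd m
      rwa [hm] at h
  have hchar : (p : ℤ) • η[K] = 0 := rep_char KU g s rep _
  refine ⟨{ u := φ
            hom := iφ
            odd := rep_odd0 KU g s rep
            sparse := hsp
            char := hchar
            ne := rep_one_ne KU g s rep
            gen := rep_gen KU g s rep
            vv_lt := ?_
            vv_unit := ?_ }⟩
  · intro i hi
    rcases Nat.eq_zero_or_pos i with rfl | h0
    · have h1 : (p : HRing (stdEven T) K) = 0 := by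
        have h2 : (p : HRing (stdEven T) K) = (p : ℤ) • (1 : HRing (stdEven T) K) := by
          rw [zsmul_eq_mul, _root_.mul_one, Int.cast_natCast]
        have h3 : (1 : HRing (stdEven T) K) =
          HRing.of (stdEven T) K 0 ((stdEven T).zero.inv ≫ η[K]) := of_one.symm
        rw [h2, h3, ← map_zsmul, ← Preadditive.comp_zsmul, hchar, comp_zero]
        exact map_zero _
      rw [vv_zero, map_natCast, h1]
    · rw [map_vv_eq, hsp _ ?_ (D.vel p i ≫ φ)]
      · exact map_zero _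
      intro h
      have h1 : (1 : ℤ) < (p : ℤ) ^ i := by
        exact_mod_cast Nat.one_lt_pow h0.ne' hp.out.one_lt
      have h2 : (p : ℤ) ^ i < (p : ℤ) ^ n := by
        exact_mod_cast Nat.pow_lt_pow_right hp.out.one_lt hi
      have h3 := Int.le_of_dvd (by omega) h
      omega
  · have h1 : (((p : ℤ) ^ n - 1 : ℤ) : ZMod (p ^ n - 1)) = 0 := by
      rw [ZMod.intCast_zmod_eq_zero_iff_dvd, cast_pn]
    have h2 : ((-((p : ℤ) ^ n - 1) : ℤ) : ZMod (p ^ n - 1)) = 0 := by
      rw [Int.cast_neg, h1, neg_zero]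
    rw [map_vv_eq]
    refine LaxThA.isUnit_of_pval KU g s rep (hdeg _ h1) (hdeg _ h2) (hdeg 0 Int.cast_zero) _ ?_
    rw [LaxThA.pval_homOf]
    exact hv

/-- **The Morava K-theory** (associative): existence. -/
theorem ka_of [LocallySmall.{0} T] {F : LaxThA.{w} (ZMod p) T}
    (hF : ∀ X, Small.{0} (F.V X)) (g : F.Gra (ZMod (p ^ n - 1))) (s : F.Sph (stdEven T))
    (hd : ∀ j : ℤ, s.g j ∈ g.H (j : ZMod (p ^ n - 1)) ((stdEven T).S j))
    {t : F.V D.R →ₗ[ZMod p] ZMod p} (ht : LaxThA.MulFun t)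
    (h0 : ∀ x : F.V (D.R ⊗ LaxThA.Lm T), x = 0) (hpr : ∀ x, t (g.pr D.R x) = t x)
    (hv : t (F.map (D.vel p n) (s.g ((p : ℤ) ^ n - 1))) ≠ 0) :
    ∃ (K : T) (_ : MonObj K), Nonempty (H795.KA D p n K) := by
  obtain ⟨K, ⟨rep⟩⟩ := LaxThA.exists_rep hF (LaxThA.kun s) g s
  exact ⟨K, rep.monObj, ka_of_rep (LaxThA.kun s) g s rep hd ht h0 hpr hv⟩

end Vale.Agent.P241.EX
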