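import Vale.Agent.P241.H618.ADPt
import Vale.Agent.P241.H618.KFieldsA
import Vale.Agent.P241.H71.VLaxA

/-!
# P241, EX: the associative Morava `K`-theory from the stage `AD D p k`

* `AD.exists_KA` : `KA D p (k + 1) K` for some associative monoid `K`, from an exact point of `A`.
-/

open CategoryTheory MonoidalCategory Limits Pretriangulated MonObj

set_option linter.unusedSectionVars false

universe v u

namespace Vale.Agent.P241.EX

open Vale.Agent.P251.T Vale.Agent.P251.M Vale.Agent.P251.M.EvenSpheres Vale.Agent.P251.S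
  Vale.Agent.P251.F Vale.Agent.P251.I Vale.Agent.P251.Z Vale.Agent.P251.H Vale.Agent.P251.X

variable {T : Type u} [Category.{v} T] [Preadditive T] [HasZeroObject T]
    [HasShift T ℤ] [∀ n : ℤ, (shiftFunctor T n).Additive] [Pretriangulated T] [IsTriangulated T]
    [MonoidalCategory T] [SymmetricCategory T] [TensorTriangulated T] [MonoidalClosed T]
    [HasCoproducts.{0} T] [HasProducts.{0} T] [StableCat T] {D : MUData T} {p k : ℕ}

/-- The functional `V_tot(R) ⟶ 𝔽_p` of a central monoid map `u : R ⟶ P` is unital and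
multiplicative. -/
theorem mulFun_phiA {P : T} [MonObj P] {p N : ℕ} [Fact p.Prime] (hcen : CenH (stdEven T) P)
    (c : Pt (stdEven T) P p N) (hc : c.Exact) {R : T} [MonObj R] (u : R ⟶ P) [IsMonHom u]
    (hu : Cen u) : LaxThA.MulFun (F := VtotLaxA hcen c hc) (A := R) (phiA c u) where
  one := phiA_one c u
  mul x y := by
    obtain ⟨x, rfl⟩ := Vtot.mk_surjective x
    obtain ⟨y, rfl⟩ := Vtot.mk_surjective y
    exact phiA_cross c u hu x y

/-- **The associative Morava K-theory**, from an exact point of `A`. -/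
theorem AD.exists_KA [LocallySmall.{0} T] {F : SpaceFunctor T}
    {e : F.S.obj CCF ≅ (stdEven T).L} (H : MUUniv e D) [Fact p.Prime] (Q : AD D p k)
    (c : Pt (stdEven T) Q.A p (p ^ (k + 1) - 1)) (hc : c.Exact)
    (hχ : ∀ z : Laz, c.χ (HRing.map (E := stdEven T) Q.io (D.ev k (MvPolynomial.C z))) =
      chiPt p (k + 1) z) :
    ∃ (K : T) (_ : MonObj K), Nonempty (H795.KA D p (k + 1) K) := by
  let s := VtotSphA Q.cenH c hc Q.odd
  let g := VtotGraA Q.cenH c hc
  refine ka_of (F := VtotLaxA Q.cenH c hc) (fun X => small_Vtot c X) g s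
    (VtotGraA_gen Q.cenH c hc Q.odd) (mulFun_phiA Q.cenH c hc Q.u Q.cen_u)
    (fun x => Vtot.eq_zero_of_odd c (Q.odd_tensor H) (by decide) x)
    (phiA_VtotGraA_pr Q.cenH c hc Q.u) ?_
  have h3 := (phiA_gen c Q.u (D.vel p (k + 1))).trans (Q.chi_vel hχ)
  intro h5
  exact one_ne_zero (h3.symm.trans h5)

end Vale.Agent.P241.EX
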