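import Vale.Agent.P251.X.HQ
import Vale.Agent.P241.Final.Ctx
import Vale.Agent.P241.H618.KOfAD
import Vale.Agent.P241.H618.Bridge
import Vale.Agent.P241.H171.Exact

/-!
# P241, EX: existence of the Morava `K`-theories at every prime

* `exists_moravaK_of` : from the stages `AD X.D p k` and the exactness of their points;
* `exists_moravaK_of_AD` : from the stages `AD X.D p k`.
-/

set_option linter.unusedSectionVars false

open CategoryTheory MonoidalCategory Limits Pretriangulated MonObj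

namespace Vale.Agent.P241.EX

open Vale.Agent.P241.H795 Vale.Agent.P241.St Vale.Agent.P241.Final
open Vale.Agent.P251 Vale.Agent.P251.I Vale.Agent.P251.T Vale.Agent.P251.F Vale.Agent.P251.M
open Vale.Agent.P251.M.EvenSpheres Vale.Agent.P251.X

variable {T : P251.St.SHCat} (S : P251.St.Susp T)

/-- The rational Eilenberg-Mac Lane spectrum. -/
theorem exists_moravaK_zero (p : ℕ) : ∃ K : RingA T, IsMoravaK S p 0 K := by
  have := locallySmall_self.{0} T.C
  obtain ⟨K, i1, -, h0, h1, h2, h3⟩ := exists_HQ S.toSpaceFunctor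
  refine ⟨⟨K⟩, ?_⟩
  unfold IsMoravaK
  rw [if_pos rfl]
  exact ⟨fun k f hk => h0 k hk f, h1, fun m hm => h2 m hm, fun f => h3 f⟩

variable {S}

/-- The Morava `K`-theories from the stages `AD`. -/
theorem exists_moravaK_of (X : Ctx S) (p : ℕ) [Fact p.Prime]
    (hAD : ∀ k : ℕ, Nonempty (AD X.D p k))
    (hex : ∀ (k : ℕ) (Q : AD X.D p k), (H171.ptA Q).Exact) :
    ∃ K : ℕ → RingA T, ∀ i, IsMoravaK S p i (K i) := by
  have := locallySmall_self.{0} T.C
  have key : ∀ i : ℕ, ∃ K : RingA T, IsMoravaK S p i K := by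
    intro i
    rcases i with _ | k
    · exact exists_moravaK_zero S p
    · obtain ⟨Q⟩ := hAD k
      obtain ⟨K, iK, ⟨A⟩⟩ := AD.exists_KA X.muUniv Q (H171.ptA Q) (hex k Q) fun z => by
        rw [H171.ptA_χ', H171.chi_C, chiPt_eq_lift]
      exact ⟨⟨K⟩, isMoravaK_of_KA X.M X.b k.succ_ne_zero A⟩
  choose K hK using key
  exact ⟨K, hK⟩

/-- **Existence of the Morava `K`-theories** from the stages `AD`. -/
theorem exists_moravaK_of_AD (X : Ctx S) (p : ℕ) [Fact p.Prime]
    (hAD : ∀ k : ℕ, Nonempty (AD X.D p k)) :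
    ∃ K : ℕ → RingA T, ∀ i, IsMoravaK S p i (K i) :=
  exists_moravaK_of X p hAD fun _ Q => H171.exact_ptA X.muUniv Q

end Vale.Agent.P241.EX
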