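import Vale.Agent.P241.EX.AD
import Vale.Agent.P241.H71.VCross

/-!
# P241, EX: facts on the associative monoid `A` of `AD D p k`

* `AD.cenH` : the homotopy classes of even degree are central;
* `AD.u : D.R ⟶ A` : the first factor, central; `AD.map_u_vv` : `v_i ↦ v_i`;
* `AD.odd_tensor` : the odd homotopy of `A ⊗ MU` vanishes;
* `AD.chi_vel` : the value of `v_n`.
-/

open CategoryTheory MonoidalCategory Limits Pretriangulated MonObj

set_option linter.unusedSectionVars false

universe v u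

namespace Vale.Agent.P241.EX

open Vale.Agent.P251.T Vale.Agent.P251.M Vale.Agent.P251.M.EvenSpheres Vale.Agent.P251.S
  Vale.Agent.P251.F Vale.Agent.P251.I Vale.Agent.P251.Z Vale.Agent.P251.H Vale.Agent.P251.X

variable {T : Type u} [Category.{v} T] [Preadditive T] [HasZeroObject T]
    [HasShift T ℤ] [∀ n : ℤ, (shiftFunctor T n).Additive] [Pretriangulated T] [IsTriangulated T]
    [MonoidalCategory T] [SymmetricCategory T] [TensorTriangulated T] [MonoidalClosed T]
    [HasCoproducts.{0} T] [HasProducts.{0} T] [StableCat T] {D : MUData T} {p k : ℕ}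

namespace AD

variable (Q : AD D p k)

theorem map_io_surj : Function.Surjective (HRing.map (E := stdEven T) Q.io) := fun y => by
  obtain ⟨z, hz⟩ := Q.surj y
  exact ⟨D.ev k z, hz⟩

/-- The homotopy classes of even degree are central. -/
theorem cenH : CenH (stdEven T) Q.A := CenH.of_surj Q.io Q.central Q.map_io_surj

/-- The first factor `MU ⟶ A`. -/
def u : D.R ⟶ Q.A := Am.v D.R (0 : Fin (k + 1)) ≫ Q.io

instance : IsMonHom Q.u := inferInstanceAs (IsMonHom (Am.v D.R (0 : Fin (k + 1)) ≫ Q.io))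

theorem cen_u : Cen Q.u := Cen.comp (z := Q.io) Q.central _

theorem law_v0 (D : MUData T) (k : ℕ) : D.law.map (HRing.map (Am.v D.R (0 : Fin (k + 1)))) =
    Laz.univ.map ((D.ev k).comp MvPolynomial.C) := by
  rw [D.law_map_v (n := k) 0, (Cob.univ Laz k).zero, map_one, one_smul]

theorem map_u_vv (i : ℕ) : HRing.map (E := stdEven T) Q.u (vv p i D.law) =
    HRing.map (E := stdEven T) Q.io (D.ev k (MvPolynomial.C (Laz.v p i))) := by
  have h1 : HRing.map (E := stdEven T) Q.u = (HRing.map (E := stdEven T) Q.io).comp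
      (HRing.map (E := stdEven T) (Am.v D.R (0 : Fin (k + 1)))) := HRing.map_comp _ _
  rw [h1, RingHom.comp_apply, ← vv_map, law_v0, vv_map]
  rfl

/-- The odd homotopy of `A ⊗ MU` vanishes. -/
theorem odd_tensor {F : SpaceFunctor T} {e : F.S.obj CCF ≅ (stdEven T).L} (H : MUUniv e D) :
    Odd0 (Q.A ⊗ D.R) := by
  obtain ⟨b, -, -⟩ := D.exists_basis_of Q.u H
  intro l f
  have h1 := b.odd (Iso.refl _) (𝟙_ T) (fun l f => by
    rw [← cancel_mono (ρ_ Q.A).hom, zero_comp]
    exact Q.odd l _) l (f ≫ (ρ_ _).inv)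
  rwa [← cancel_mono (ρ_ (Q.A ⊗ D.R)).inv, zero_comp]

/-- The value of `v_n` at the point. -/
theorem chi_vel [Fact p.Prime] {χ : HRing (stdEven T) Q.A →+* ZMod p}
    (hχ : ∀ z : Laz, χ (HRing.map (E := stdEven T) Q.io (D.ev k (MvPolynomial.C z))) =
      chiPt p (k + 1) z) :
    χ (HRing.of (stdEven T) Q.A _ (D.vel p (k + 1) ≫ Q.u)) = 1 := by
  rw [← HRing.map_of, ← D.vel_spec, map_u_vv, hχ, chiPt_v k.succ_ne_zero]

end AD

end Vale.Agent.P241.EX
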