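import Vale.Agent.P251.X.KunTh
import Vale.Agent.P251.X.HomIso
import Vale.Agent.P241.H71.LaxA

/-!
# P241, EX: imports of the port of the lax theories without commutativity

The definitions `LaxThA`, `LaxThA.Sph`, `LaxThA.Gra` are in `H71/LaxA.lean`.
-/
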