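import Vale.Agent.P241.H618.KunA

/-!
# P241, EX (associative version of P251, part X)5: the oplax structure

`LaxThA.R : V(X ⊗ Y) ⟶ V X ⊗ V Y`, the projection of the Künneth theorem; it is natural,
coassociative and counital.
-/

open CategoryTheory MonoidalCategory Limits Pretriangulated
open scoped TensorProduct DirectSum

universe w v u

noncomputable section

namespace Vale.Agent.P241.EX

open Vale.Agent.P251 Vale.Agent.P251.X
open Vale.Agent.P251.H Vale.Agent.P251.T Vale.Agent.P251.M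

set_option linter.unusedSectionVars false

namespace LaxThA

variable {k : Type} [Field k] {T : Type u} [Category.{v} T] [Preadditive T] [HasZeroObject T]
  [HasShift T ℤ] [∀ n : ℤ, (shiftFunctor T n).Additive] [Pretriangulated T]
  [MonoidalCategory T] [SymmetricCategory T] [TensorTriangulated T] [MonoidalClosed T]
  [HasCoproducts.{0} T] (F : LaxThA.{w} k T)

/-- the conclusion of the Künneth theorem -/
def Kun : Prop := ∀ Y X : T, Function.Bijective (F.kap Y X)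

variable {F} (K : F.Kun)

/-- the projection of the Künneth theorem -/
def R (X Y : T) : F.V (X ⊗ Y) →ₗ[k] F.V X ⊗[k] F.V Y :=
  (LinearMap.fst k _ _).comp (LinearEquiv.ofBijective (F.kap Y X) (K Y X)).symm.toLinearMap

theorem R_kap (X Y : T) (t : (F.V X ⊗[k] F.V Y) × (F.V (X ⊗ Lm T) ⊗[k] F.V (Lp T ⊗ Y))) :
    R K X Y (F.kap Y X t) = t.1 := by
  have h : (LinearEquiv.ofBijective (F.kap Y X) (K Y X)).symm (F.kap Y X t) = t := by
    rw [LinearEquiv.symm_apply_eq]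
    rfl
  change ((LinearEquiv.ofBijective (F.kap Y X) (K Y X)).symm (F.kap Y X t)).1 = t.1
  rw [h]

theorem R_m (X Y : T) (x : F.V X) (y : F.V Y) : R K X Y (F.m X Y x y) = x ⊗ₜ[k] y := by
  have h := R_kap K X Y (x ⊗ₜ[k] y, 0)
  rw [kap_apply, TensorProduct.lift.tmul, _root_.map_zero, add_zero] at h
  exact h

theorem R_mm (X Y : T) (a : F.V (X ⊗ Lm T)) (b : F.V (Lp T ⊗ Y)) :
    R K X Y (F.mm negOne.hom X Y a b) = 0 := by
  have h := R_kap K X Y (0, a ⊗ₜ[k] b)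
  rw [kap_apply, TensorProduct.lift.tmul, _root_.map_zero, zero_add] at h
  exact h

include K in
/-- `V(X ⊗ Y)` is spanned by the two kinds of products -/
theorem hom_ext_kun {X Y : T} {W : Type*} [AddCommGroup W] [Module k W]
    {f g : F.V (X ⊗ Y) →ₗ[k] W} (h1 : ∀ x y, f (F.m X Y x y) = g (F.m X Y x y))
    (h2 : ∀ a b, f (F.mm negOne.hom X Y a b) = g (F.mm negOne.hom X Y a b)) : f = g := by
  have h : f.comp (F.kap Y X) = g.comp (F.kap Y X) := by
    apply LinearMap.prod_ext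
    · apply TensorProduct.ext'
      intro x y
      simp only [LinearMap.comp_apply, LinearMap.inl_apply]
      rw [kap_apply, TensorProduct.lift.tmul, _root_.map_zero, add_zero, h1]
    · apply TensorProduct.ext'
      intro x y
      simp only [LinearMap.comp_apply, LinearMap.inr_apply]
      rw [kap_apply, TensorProduct.lift.tmul, _root_.map_zero, zero_add, h2]
  apply LinearMap.ext
  intro w
  obtain ⟨t, rfl⟩ := (K Y X).2 w
  exact DFunLike.congr_fun h t

theorem mm_nat {A B : T} (θ : A ⊗ B ⟶ 𝟙_ T) {X X' Y Y' : T} (f : X ⟶ X') (g : Y ⟶ Y')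
    (a : F.V (X ⊗ A)) (b : F.V (B ⊗ Y)) :
    F.map (f ⊗ₘ g) (F.mm θ X Y a b) = F.mm θ X' Y' (F.map (f ▷ A) a) (F.map (B ◁ g) b) := by
  rw [mm_apply, mm_apply, ← F.m_nat, ← F.toHomTh.map_comp_apply, ← F.toHomTh.map_comp_apply,
    mid_nat]

theorem R_nat {X X' Y Y' : T} (f : X ⟶ X') (g : Y ⟶ Y') (w : F.V (X ⊗ Y)) :
    R K X' Y' (F.map (f ⊗ₘ g) w) = TensorProduct.map (F.map f) (F.map g) (R K X Y w) := by
  have h : (R K X' Y').comp (F.map (f ⊗ₘ g)) =
      (TensorProduct.map (F.map f) (F.map g)).comp (R K X Y) := by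
    refine hom_ext_kun K (fun x y => ?_) fun a b => ?_
    · rw [LinearMap.comp_apply, LinearMap.comp_apply, F.m_nat, R_m, R_m, TensorProduct.map_tmul]
    · rw [LinearMap.comp_apply, LinearMap.comp_apply, mm_nat, R_mm, R_mm, _root_.map_zero]
  exact DFunLike.congr_fun h w

section per

variable (s : F.Sph (stdEven T))

instance : IsInv (Lm T) := IsInv.of_inverse (negOne (T := T))

include s in
/-- `R` kills all the products of odd classes -/
theorem R_mm' {A B : T} (i : ℤ) (φ : Lm T ⊗ (stdEven T).S i ≅ A) (θ : A ⊗ B ⟶ 𝟙_ T) (X Y : T)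
    (a : F.V (X ⊗ A)) (b : F.V (B ⊗ Y)) : R K X Y (F.mm θ X Y a b) = 0 := by
  obtain ⟨a₁, ha₁⟩ := (F.toHomTh.map_iso_bijective
    (α_ X (Lm T) ((stdEven T).S i) ≪≫ whiskerLeftIso X φ)).2 a
  obtain ⟨a₀, ha₀⟩ := (s.bij' i (X ⊗ Lm T)).2 a₁
  obtain ⟨τ, hτ⟩ := whiskerLeft_surj (Lm T)
    (((α_ (Lm T) ((stdEven T).S i) B).inv ≫ φ.hom ▷ B ≫ θ) ≫ (negOne (T := T)).inv)
  have hτ' : Lm T ◁ τ ≫ negOne.hom = (α_ (Lm T) ((stdEven T).S i) B).inv ≫ φ.hom ▷ B ≫ θ := by
    rw [hτ, Category.assoc, Iso.inv_hom_id, Category.comp_id]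
  have ha₀' : F.m (X ⊗ Lm T) ((stdEven T).S i) a₀ (s.g i) = a₁ := ha₀
  have key : F.mm θ X Y a b = F.mm negOne.hom X Y a₀ (F.map (τ ▷ Y)
      (F.map (α_ ((stdEven T).S i) B Y).inv (F.m ((stdEven T).S i) (B ⊗ Y) (s.g i) b))) := by
    rw [mm_apply, mm_apply, ← F.m_whiskerLeft, ← F.toHomTh.map_comp_apply, mid_right, hτ',
      ← F.m_whiskerLeft, ← F.m_assoc, ← F.toHomTh.map_comp_apply, ← F.toHomTh.map_comp_apply,
      ← mid_per, F.toHomTh.map_comp_apply, F.m_whiskerRight, ha₀']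
    have h1 : F.map ((α_ X (Lm T) ((stdEven T).S i)).hom ≫ X ◁ φ.hom) a₁ = a := ha₁
    rw [h1]
  rw [key, R_mm]

end per

theorem mm_assoc1 {A B : T} (θ : A ⊗ B ⟶ 𝟙_ T) (X Y Z : T) (a : F.V (X ⊗ A)) (b : F.V (B ⊗ Y))
    (z : F.V Z) : F.map (α_ X Y Z).hom (F.m (X ⊗ Y) Z (F.mm θ X Y a b) z) =
      F.mm θ X (Y ⊗ Z) a (F.map (α_ B Y Z).hom (F.m (B ⊗ Y) Z b z)) := by
  rw [mm_apply, mm_apply, ← F.m_whiskerRight, ← F.m_whiskerLeft, ← F.m_assoc,
    ← F.toHomTh.map_comp_apply, ← F.toHomTh.map_comp_apply, ← F.toHomTh.map_comp_apply,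
    mid_assoc1]

theorem mm_assoc2 {A B : T} (θ : A ⊗ B ⟶ 𝟙_ T) (X Y Z : T) (x : F.V X) (b : F.V (Y ⊗ A))
    (c : F.V (B ⊗ Z)) : F.map (α_ X Y Z).hom (F.mm θ (X ⊗ Y) Z
      (F.map (α_ X Y A).inv (F.m X (Y ⊗ A) x b)) c) = F.m X (Y ⊗ Z) x (F.mm θ Y Z b c) := by
  rw [mm_apply, mm_apply, ← F.m_whiskerRight, ← F.m_whiskerLeft, ← F.m_assoc,
    ← F.toHomTh.map_comp_apply, ← F.toHomTh.map_comp_apply, ← F.toHomTh.map_comp_apply,
    mid_assoc2]

theorem mm_assoc3 {A B : T} (θ : A ⊗ B ⟶ 𝟙_ T) (X Y Z : T) (a : F.V (X ⊗ A))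
    (b : F.V (B ⊗ (Y ⊗ A))) (c : F.V (B ⊗ Z)) :
    F.map (α_ X Y Z).hom (F.mm θ (X ⊗ Y) Z
      (F.map (α_ X Y A).inv (F.mm θ X (Y ⊗ A) a b)) c) =
      F.mm θ X (Y ⊗ Z) a (F.map (B ◁ mid θ Y Z)
        (F.map (α_ B (Y ⊗ A) (B ⊗ Z)).hom (F.m (B ⊗ (Y ⊗ A)) (B ⊗ Z) b c))) := by
  have h1 := mm_assoc1 (F := F) θ X (Y ⊗ A) (B ⊗ Z) a b c
  have h2 := mm_nat (F := F) θ (𝟙 X) (mid θ Y Z) a
    (F.map (α_ B (Y ⊗ A) (B ⊗ Z)).hom (F.m (B ⊗ (Y ⊗ A)) (B ⊗ Z) b c))
  rw [id_whiskerRight, F.toHomTh.map_id_apply, id_tensorHom, ← h1] at h2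
  rw [← h2, mm_apply, ← F.m_whiskerRight, ← F.toHomTh.map_comp_apply,
    ← F.toHomTh.map_comp_apply, ← F.toHomTh.map_comp_apply, mid_assoc2]

theorem R_assoc (X Y Z : T) (w : F.V ((X ⊗ Y) ⊗ Z)) :
    TensorProduct.assoc k (F.V X) (F.V Y) (F.V Z)
      (TensorProduct.map (R K X Y) LinearMap.id (R K (X ⊗ Y) Z w)) =
      TensorProduct.map LinearMap.id (R K Y Z) (R K X (Y ⊗ Z) (F.map (α_ X Y Z).hom w)) := by
  have h : ((TensorProduct.assoc k (F.V X) (F.V Y) (F.V Z)).toLinearMap.comp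
      ((TensorProduct.map (R K X Y) LinearMap.id).comp (R K (X ⊗ Y) Z))) =
      (TensorProduct.map LinearMap.id (R K Y Z)).comp
        ((R K X (Y ⊗ Z)).comp (F.map (α_ X Y Z).hom)) := by
    refine hom_ext_kun K (fun w z => ?_) fun w c => ?_
    · -- the product of `w` and `z`
      have h1 : ((TensorProduct.assoc k (F.V X) (F.V Y) (F.V Z)).toLinearMap.comp
          ((TensorProduct.map (R K X Y) LinearMap.id).comp
          ((R K (X ⊗ Y) Z).comp ((F.m (X ⊗ Y) Z).flip z)))) =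
          (TensorProduct.map LinearMap.id (R K Y Z)).comp
            ((R K X (Y ⊗ Z)).comp ((F.map (α_ X Y Z).hom).comp ((F.m (X ⊗ Y) Z).flip z))) := by
        refine hom_ext_kun K (fun x y => ?_) fun a b => ?_
        · simp only [LinearMap.comp_apply, LinearMap.flip_apply]
          rw [F.m_assoc, R_m, R_m, TensorProduct.map_tmul, TensorProduct.map_tmul, R_m, R_m]
          rfl
        · simp only [LinearMap.comp_apply, LinearMap.flip_apply]
          rw [mm_assoc1, R_mm, R_m, TensorProduct.map_tmul, R_mm, TensorProduct.zero_tmul,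
            _root_.map_zero, _root_.map_zero]
      exact DFunLike.congr_fun h1 w
    · -- the second kind of product
      have h1 : ((TensorProduct.assoc k (F.V X) (F.V Y) (F.V Z)).toLinearMap.comp
          ((TensorProduct.map (R K X Y) LinearMap.id).comp
          ((R K (X ⊗ Y) Z).comp ((F.mm negOne.hom (X ⊗ Y) Z).flip c)))).comp
            (F.map (α_ X Y (Lm T)).inv) =
          ((TensorProduct.map LinearMap.id (R K Y Z)).comp
            ((R K X (Y ⊗ Z)).comp ((F.map (α_ X Y Z).hom).comp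
              ((F.mm negOne.hom (X ⊗ Y) Z).flip c)))).comp (F.map (α_ X Y (Lm T)).inv) := by
        refine hom_ext_kun K (fun x b => ?_) fun a b => ?_
        · simp only [LinearMap.comp_apply, LinearMap.flip_apply]
          rw [mm_assoc2, R_mm, R_m, TensorProduct.map_tmul, R_mm, TensorProduct.tmul_zero,
            _root_.map_zero]
          rfl
        · simp only [LinearMap.comp_apply, LinearMap.flip_apply]
          rw [mm_assoc3, R_mm, R_mm, _root_.map_zero]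
          rfl
      obtain ⟨w', rfl⟩ := (F.toHomTh.map_iso_bijective (α_ X Y (Lm T)).symm).2 w
      exact DFunLike.congr_fun h1 w'
  exact DFunLike.congr_fun h w

end LaxThA

end Vale.Agent.P241.EX
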